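import Vale.Agent.P144U.Rg.Early
import Vale.Agent.P144U.Fl.Gen
import Vale.Agent.P144U.Fl.Main

/-!
Universality for boundaries with isolated tips, from the weights.
-/

namespace Vale.Agent.P144Z

theorem genT_of_wt (hW : WtS) : GenT := genT_of (engT_of initU hW) (genJU_of flowSU mainSU)

end Vale.Agent.P144Z
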