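import Vale.Agent.P144U.Rg.Sk
import Vale.Agent.P144Z.G.Cover

/-!
The weights of the tips.
-/

namespace Vale.Agent.P144Z

open Finset Matrix

namespace UWt

variable {M : ℕ} [NeZero M] {Tp : Finset (Tor M)} {N L ℓ : ℕ} {x z p : Tor M}

/-- The exponent of the weight. -/
def ex (Tp : Finset (Tor M)) (N ℓ : ℕ) (z : Tor M) : ℕ :=
  Tp.sup fun p => N + 5 - max 4 (tdist z p / ℓ)

omit [NeZero M] in
theorem ex_le (Tp : Finset (Tor M)) (N ℓ : ℕ) (z : Tor M) : ex Tp N ℓ z ≤ N + 1 :=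
  Finset.sup_le fun p _ => by omega

omit [NeZero M] in
theorem le_ex (hp : p ∈ Tp) : N + 5 - max 4 (tdist z p / ℓ) ≤ ex Tp N ℓ z :=
  Finset.le_sup (f := fun p => N + 5 - max 4 (tdist z p / ℓ)) hp

omit [NeZero M] in
theorem ex_near (hp : p ∈ Tp) (h : tdist z p < 5 * ℓ) : ex Tp N ℓ z = N + 1 := by
  have h1 := le_ex (N := N) (ℓ := ℓ) (z := z) hp
  have h2 := ex_le Tp N ℓ z
  have h3 : tdist z p / ℓ < 5 := Nat.div_lt_of_lt_mul (by omega)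
  omega

omit [NeZero M] in
theorem ex_off (hℓ : 1 ≤ ℓ) (h : ∀ p ∈ Tp, 5 * ℓ ≤ tdist x p) : ex Tp N ℓ x ≤ N :=
  Finset.sup_le fun p hp => by
    have := (Nat.le_div_iff_mul_le hℓ).2 (h p hp)
    omega

theorem ex_far (hL : 20 ≤ L) (hℓ : 1 ≤ ℓ) (h : ∀ p ∈ Tp, 5 * (L * ℓ) ≤ tdist z p)
    (hx : tdist x z ≤ 4 * (L * ℓ)) : ex Tp N ℓ x ≤ ex Tp N (L * ℓ) z - 1 :=
  Finset.sup_le fun p hp => by
    have h1 := le_ex (N := N) (ℓ := L * ℓ) (z := z) hp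
    have h2 := (Nat.le_div_iff_mul_le (Nat.mul_pos (by omega) hℓ)).2 (h p hp)
    have h3 := Nat.div_mul_le_self (tdist z p) (L * ℓ)
    have h4 := tdist_triangle z x p
    rw [tdist_comm z x] at h4
    obtain ⟨D, hD⟩ := Nat.exists_eq_add_of_le h2
    rw [hD] at h1 h3
    have h5 : 5 + D + 1 ≤ tdist x p / ℓ := (Nat.le_div_iff_mul_le hℓ).2 (by
      have h6 : 20 * ((1 + D) * ℓ) ≤ L * ((1 + D) * ℓ) := Nat.mul_le_mul_right _ hL
      nlinarith)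
    omega

theorem ex_mono (hL : 20 ≤ L) (hℓ : 1 ≤ ℓ) (hx : tdist x z ≤ 4 * (L * ℓ)) :
    ex Tp N ℓ x ≤ ex Tp N (L * ℓ) z := by
  by_cases h : ∀ p ∈ Tp, 5 * (L * ℓ) ≤ tdist z p
  · exact (ex_far hL hℓ h hx).trans (Nat.sub_le _ _)
  · push Not at h
    obtain ⟨p, hp, h⟩ := h
    rw [ex_near hp h]
    exact ex_le _ _ _ _

/-- The covering near the tips. -/
theorem cover (hL : 20 ≤ L) (hℓ : 1 ≤ ℓ)
    (hs : ∀ p ∈ Tp, ∀ p' ∈ Tp, p ≠ p' → 16 * (L * ℓ) < tdist p p') (hp : p ∈ Tp)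
    (hz : tdist z p ≤ N * (L * ℓ)) : 1 ≤ ex Tp N (L * ℓ) z ∧ ∃ Y Z : Finset (Tor M),
      (Y.card : ℝ) ≤ 46 ∧ (Z.card : ℝ) ≤ (L : ℝ) ^ 2 ∧
      (∀ y ∈ Y, ∀ x, ex Tp N ℓ x ≤ ex Tp N (L * ℓ) z) ∧
      (∀ y ∈ Z, ∀ x, tdist x y ≤ 10 * ℓ → ex Tp N ℓ x ≤ ex Tp N (L * ℓ) z - 1) ∧
      ∀ x, tdist x z ≤ 3 * (L * ℓ) →
        (∃ y ∈ Y, tdist x y ≤ 8 * ℓ) ∨ ∃ y ∈ Z, tdist x y ≤ 8 * ℓ := by
  have hl : (0 : ℝ) < ℓ := by exact_mod_cast hℓ
  have hL' : (20 : ℝ) ≤ L := by exact_mod_cast hL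
  have h20 : 20 * ℓ ≤ L * ℓ := Nat.mul_le_mul_right _ hL
  obtain ⟨Z, Z1, Z2, Z3⟩ := cover_ball z (3 * (L * ℓ)) (r := 8 * ℓ) (by omega)
  have Z4 : (Z.card : ℝ) ≤ (L : ℝ) ^ 2 := by
    refine Z1.trans (pow_le_pow_left₀ (by positivity) ?_ 2)
    push_cast
    rw [show 2 * (3 * ((L : ℝ) * ℓ)) / (8 * ℓ) = 3 * L / 4 by field_simp; ring]
    linarith
  refine ⟨?_, ?_⟩
  · have h1 := le_ex (N := N) (ℓ := L * ℓ) (z := z) hp
    have h2 : tdist z p / (L * ℓ) ≤ N := Nat.div_le_of_le_mul (by rwa [mul_comm])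
    omega
  by_cases h : ∀ p ∈ Tp, 5 * (L * ℓ) ≤ tdist z p
  · refine ⟨∅, Z, by simp, Z4, by simp, fun y hy x hx => ex_far hL hℓ h ?_,
      fun x hx => Or.inr (Z3 x hx)⟩
    have := tdist_triangle x y z
    have := Z2 y hy
    omega
  · push Not at h
    obtain ⟨q, hq, h⟩ := h
    obtain ⟨Y, Y1, -, Y3⟩ := cover_ball q (23 * ℓ) (r := 8 * ℓ) (by omega)
    rw [ex_near hq h]
    refine ⟨Y, Z.filter fun y => 15 * ℓ ≤ tdist y q, Y1.trans ?_, le_trans ?_ Z4,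
      fun _ _ x => ex_le _ _ _ _, fun y hy x hx => ex_off hℓ fun q' hq' => ?_, fun x hx => ?_⟩
    · push_cast
      rw [show 2 * (23 * (ℓ : ℝ)) / (8 * ℓ) = 23 / 4 by field_simp; ring]
      norm_num
    · exact_mod_cast card_filter_le _ _
    · rw [mem_filter] at hy
      have h1 := Z2 y hy.1
      have h2 := hy.2
      have h3 := tdist_triangle y x q'
      rw [tdist_comm y x] at h3
      by_cases e : q = q'
      · subst e
        omega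
      · have h4 := hs q hq q' hq' e
        have h5 := tdist_triangle q z q'
        have h6 := tdist_triangle z y q'
        rw [tdist_comm q z] at h5
        rw [tdist_comm z y] at h6
        omega
    · obtain ⟨y, hy, h1⟩ := Z3 x hx
      by_cases h2 : 15 * ℓ ≤ tdist y q
      · exact Or.inr ⟨y, mem_filter.2 ⟨hy, h2⟩, h1⟩
      · have := tdist_triangle x y q
        exact Or.inl (Y3 x (by omega))

omit [NeZero M] in
theorem sum_snd (Z : Finset (Tor M)) (w : ℝ) : ∑ y ∈ Z ×ˢ ({w} : Finset ℝ), y.2 = Z.card * w := by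
  simp

end UWt

open UWt in
theorem wtS : WtS := by
  classical
  intro L N hL
  have hL' : (20 : ℝ) ≤ L := by exact_mod_cast hL
  have hG : (1 : ℝ) ≤ (L : ℝ) ^ 2 := one_le_pow₀ (by linarith)
  refine ⟨((L : ℝ) ^ 2) ^ (N + 1), one_le_pow₀ hG, fun M _ Tp =>
    ⟨fun ℓ z => ((L : ℝ) ^ 2) ^ ex Tp N ℓ z, fun ℓ z => ⟨one_le_pow₀ hG,
      pow_le_pow_right₀ hG (ex_le _ _ _ _)⟩, fun A ℓ n₂ c κ s ε hℓ hs hc hκ hκ' h0 hb hB => ?_⟩⟩
  refine ⟨hB.sch, fun z => one_le_pow₀ hG, fun x z hx => pow_le_pow_right₀ hG (ex_mono hL hℓ hx),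
    fun z => ?_⟩
  have h20 : 20 * ℓ ≤ L * ℓ := Nat.mul_le_mul_right _ hL
  have hw : 0 < ((L : ℝ) ^ 2) ^ ex Tp N (L * ℓ) z := by positivity
  have hc' : c ^ 2 / L ≤ ε := by rwa [div_le_iff₀ (by linarith)]
  have hε : 0 ≤ ε := le_trans (by positivity) hc'
  rw [bdlW] at hb
  norm_num at hb
  by_cases h : ∀ p ∈ Tp, N * (L * ℓ) < tdist z p
  · obtain ⟨Z₁, Z₂, z1, z2, z3, z4⟩ := hB.cov z h
    refine ⟨κ, Z₁, Z₂.filter (fun y => tdist y z ≤ 3 * (L * ℓ) + 8 * ℓ) ×ˢ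
      {((L : ℝ) ^ 2) ^ ex Tp N (L * ℓ) z}, hκ, hκ', z2, fun y hy x hx => ?_, ?_, fun x hx hf => ?_⟩
    · rw [mem_product, mem_filter, mem_singleton] at hy
      have := tdist_triangle x y.1 z
      rw [hy.2]
      exact pow_le_pow_right₀ hG (ex_mono hL hℓ (by omega))
    · have h1 : ((Z₂.filter fun y => tdist y z ≤ 3 * (L * ℓ) + 8 * ℓ).card : ℝ) ≤ n₂ := by
        exact_mod_cast (card_filter_le _ _).trans z1
      rw [sum_snd, ← mul_assoc, ← add_mul]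
      refine mul_le_mul_of_nonneg_right (le_trans ?_ (hb.trans (by linarith))) hw.le
      rw [add_assoc, div_mul_eq_mul_div, ← add_div, mul_assoc, ← mul_add, mul_comm (c ^ 2)]
      gcongr
    · refine (z4 x hx hf).imp_right (Or.imp_right ?_)
      rintro ⟨y, hy, h1⟩
      have := tdist_triangle y x z
      rw [tdist_comm y x] at this
      have h2 : tdist y z ≤ 3 * (L * ℓ) + 8 * ℓ := by omega
      exact ⟨(y, _), mem_product.2 ⟨mem_filter.2 ⟨hy, h2⟩, mem_singleton_self _⟩, h1⟩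
  · push Not at h
    obtain ⟨p, hp, h⟩ := h
    obtain ⟨k1, Y, Z, y1, z1, y2, z2, h3⟩ := cover hL hℓ hs hp h
    refine ⟨κ, ∅, Y ×ˢ {((L : ℝ) ^ 2) ^ ex Tp N (L * ℓ) z} ∪
      Z ×ˢ {((L : ℝ) ^ 2) ^ (ex Tp N (L * ℓ) z - 1)}, hκ, hκ', by simp, fun y hy x hx => ?_, ?_,
      fun x hx _ => Or.inr (Or.inr ?_)⟩
    · simp only [mem_union, mem_product, mem_singleton] at hy
      rcases hy with hy | hy <;> rw [hy.2]
      · exact pow_le_pow_right₀ hG (y2 _ hy.1 x)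
      · exact pow_le_pow_right₀ hG (z2 _ hy.1 x hx)
    · have h1 := sum_union_inter (s₁ := Y ×ˢ {((L : ℝ) ^ 2) ^ ex Tp N (L * ℓ) z})
        (s₂ := Z ×ˢ {((L : ℝ) ^ 2) ^ (ex Tp N (L * ℓ) z - 1)}) (f := fun y => y.2)
      have h2 : 0 ≤ ∑ y ∈ Y ×ˢ {((L : ℝ) ^ 2) ^ ex Tp N (L * ℓ) z} ∩
          Z ×ˢ {((L : ℝ) ^ 2) ^ (ex Tp N (L * ℓ) z - 1)}, y.2 := sum_nonneg fun y hy => by
        rw [mem_singleton.1 (mem_product.1 (mem_inter.1 hy).1).2]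
        exact hw.le
      have h4 : (L : ℝ) ^ 2 * ((L : ℝ) ^ 2) ^ (ex Tp N (L * ℓ) z - 1) =
          ((L : ℝ) ^ 2) ^ ex Tp N (L * ℓ) z := by rw [← pow_succ', Nat.sub_add_cancel k1]
      have h5 := mul_le_mul_of_nonneg_right y1 hw.le
      have h6 := mul_le_mul_of_nonneg_right z1
        (by positivity : 0 ≤ ((L : ℝ) ^ 2) ^ (ex Tp N (L * ℓ) z - 1))
      have h7 : (L : ℝ) ^ 2 * κ ^ 2 ≤ ε := le_trans (le_add_of_nonneg_right (by positivity)) hb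
      rw [sum_snd, sum_snd] at h1
      rw [sum_empty, mul_zero, zero_div, add_zero, mul_div_assoc]
      have h8 := mul_le_mul hc' (show _ ≤ 47 * ((L : ℝ) ^ 2) ^ ex Tp N (L * ℓ) z by linarith)
        (sum_nonneg fun y hy => by
          simp only [mem_union, mem_product, mem_singleton] at hy
          rcases hy with hy | hy <;> rw [hy.2] <;> positivity : 0 ≤ ∑ y ∈
            Y ×ˢ {((L : ℝ) ^ 2) ^ ex Tp N (L * ℓ) z} ∪
              Z ×ˢ {((L : ℝ) ^ 2) ^ (ex Tp N (L * ℓ) z - 1)}, y.2) hε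
      nlinarith [mul_le_mul_of_nonneg_right h7 hw.le, mul_nonneg hε hw.le]
    · rcases h3 x hx with ⟨y, hy, h1⟩ | ⟨y, hy, h1⟩
      · exact ⟨(y, _), mem_union_left _ (mem_product.2 ⟨hy, mem_singleton_self _⟩), h1⟩
      · exact ⟨(y, _), mem_union_right _ (mem_product.2 ⟨hy, mem_singleton_self _⟩), h1⟩

end Vale.Agent.P144Z
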