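import Vale.Agent.P144U.Fl.Defs
import Vale.Agent.P144E.Basic
import Vale.Agent.P144D.I.U.Defs

/-!
Boundaries with isolated tips: the class of fields and the statement on the flow.
-/

namespace Vale.Agent.P144Z

open Finset Matrix

/-- The version of `BdW` in which the covering is only given at distance more than `d` from the
tips `Tp`. -/
structure BdT {M : ℕ} [NeZero M] (A : Gauge M) (Tp : Finset (Tor M)) (d ℓ ℓ' m : ℕ) (c κ s : ℝ)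
    (n₂ : ℕ) : Prop where
  sch : ∀ z, (∃ f, tdist f z ≤ ℓ' ∧ |flux A f| ≠ 1) → RN.Shr A ℓ ℓ' z (c * √((ℓ : ℝ) / ℓ'))
  cov : ∀ z, (∀ p ∈ Tp, d < tdist z p) →
    ∃ (Z₁ : Finset (Tor M × ℝ × ℝ)) (Z₂ : Finset (Tor M)), Z₂.card ≤ n₂ ∧
    (∀ y ∈ Z₁, 0 < y.2.2 ∧ y.2.2 ≤ y.2.1 ∧ y.2.1 ≤ c ∧
      RkA A ℓ ℓ' ((m + 3) * ℓ) y.2.1 y.2.2 y.1) ∧ ∑ y ∈ Z₁, y.2.1 * y.2.2 ≤ s ∧
    ∀ x, tdist x z ≤ 3 * ℓ' → (∃ f, tdist f x ≤ 6 * ℓ ∧ |flux A f| ≠ 1) →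
      RN.Shr A ℓ ℓ' x κ ∨ (∃ y ∈ Z₁, tdist x y.1 ≤ m * ℓ) ∨ ∃ y ∈ Z₂, tdist x y ≤ m * ℓ

/-- The boundary is good below the step `k`; from the step `k` on it is good away from the
separated tips. -/
def QU (L : ℕ) (ε : ℝ) (k N : ℕ) : Cls := fun M _ A J =>
  ∃ Tp : Finset (Tor M), (∀ p ∈ Tp, ∀ p' ∈ Tp, p ≠ p' → 16 * sc L J < tdist p p') ∧
    BndW A L k ε ∧ ∃ c : ℝ, 1 ≤ c ∧ c ^ 2 ≤ ε * L ∧ ∀ j, k ≤ j → j < J →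
      ∃ (κ s : ℝ) (n₂ : ℕ), 0 < κ ∧ 8 * κ ≤ 1 ∧ 0 ≤ s ∧ bdlW L 8 c κ s n₂ ≤ ε ∧
        BdT A Tp (N * (L * sc L j)) (sc L j) (L * sc L j) 8 c κ s n₂

/-- The flow is bounded for the classes `QU` with a late start. -/
def EngT : Prop :=
  ∃ ε₀ > (0 : ℝ), ∀ ε > (0 : ℝ), ε ≤ ε₀ → ∃ L₀ : ℕ, ∀ L ≥ L₀, ∃ kf : ℕ → ℕ → ℕ,
    EngU L fun n Q => ∃ N k, kf n N ≤ k ∧ Q = QU L ε k N

/-- Universality for the classes `QU`, with the constants of the plane. -/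
def GenT : Prop :=
  ∃ ε₀ > (0 : ℝ), ∀ ε₁ > (0 : ℝ), ε₁ ≤ ε₀ → ∀ c' : ℝ, 1 ≤ c' → ∃ η₁ > (0 : ℝ), ∃ L₀ : ℕ,
    ∀ L ≥ L₀, ∃ kf : ℕ → ℕ → ℕ,
    (∀ m N k, kf m N ≤ k → UnivU (QU L ε₁ k N) par0 1 1 L m ∧
      ∃ Zσ Zε : ℝ, UnivJK (QU L ε₁ k N) par0 Zσ Zε L c' η₁ m) ∧
    ∀ ε > 0, ∃ η₀ > 0, ∀ R : ℕ, ∃ δ₀ > 0, ∀ q : Par, q.R = R → Crit L q η₀ δ₀ →
      ∃ Zσ Zε : ℝ, |Zσ - 1| < ε ∧ |Zε - 1| < ε ∧ MainOK q Zσ Zε ∧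
        ∀ m N k, kf m N ≤ k → UnivU (QU L ε₁ k N) q Zσ Zε L m ∧
          UnivJK (QU L ε₁ k N) q Zσ Zε L c' η₁ m

end Vale.Agent.P144Z
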