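import Vale.Agent.P144U.Rg.All0
import Vale.Agent.P144U.Rg.Wt

/-!
Universality for boundaries with isolated tips.
-/

namespace Vale.Agent.P144Z

theorem genT : GenT := genT_of_wt wtS

end Vale.Agent.P144Z
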