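import Vale.Agent.P144U.Rg.Ks
import Vale.Agent.P144E.Rg.Step

/-!
# Weighted steps
-/

namespace Vale.Agent.P144Z.W.Geo.R8

open Finset Matrix Vale.Agent.P144Z.Geo Vale.Agent.P144Z.R8 Filter Topology

open Classical in
/-- The abstract step at one point. -/
theorem Hyp.coreU {g : Geo} {L ℓ j : ℕ} {h β h' β' kc ke : ℝ} {ks : Finset g.P → ℝ} {s s' t : g.St}
    (H : Hyp g L ℓ j h β h' β' kc ks ke s s' t) {D b ν ρ : ℝ} (z : g.P)
    (h1 : ∑ U ∈ (near (2 * (L * ℓ)) z).filter (fun U => stein U ≤ ℓ ∧ Dfc g ℓ U),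
      ks U * g.df ℓ h β s s' U ≤ ρ * D)
    (h2 : ∑ U ∈ near (2 * (L * ℓ)) z, g.df ℓ h β s s' U * Real.exp ((L : ℝ) * (stein U : ℝ) / ℓ) ≤
      200 * L ^ 2 * D) (hb : Anch ℓ L (g.bf ℓ h s) b)
    (hν : Anch (L * ℓ) (2 * L) (fun U =>
      g.pn ℓ (h / 2) β U (NL g (covP (Dm g.A) ℓ (L * ℓ)) s s' U)) ν) :
    ∑ X ∈ near (L * ℓ) z, g.df (L * ℓ) h' β' (g.step j ℓ (L * ℓ) 0 s) t X *
      Real.exp ((L : ℝ) * (stein X : ℝ) / ((L * ℓ : ℕ) : ℝ)) ≤
      (4 * Real.exp 6 * ρ + 800 * kc * L ^ 2 * Real.exp (2 - L)) * D +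
        1200 * Real.exp 6 * (kc + 3 * ke) * (L ^ 2 * b + ν) := by
  have hc := H.kc0
  have he := H.ke0
  have hl : (0 : ℝ) < ℓ := by have := H.hl; positivity
  have hL : (6 : ℝ) ≤ L := by exact_mod_cast H.hL
  simp only [H.wt_eq]
  refine (H.sum_df_le z).trans ?_
  rw [sum_add_distrib, ← mul_sum, ← mul_sum]
  have h3 : ∑ U ∈ near (2 * (L * ℓ)) z, fac g ℓ kc ks U * g.df ℓ h β s s' U ≤
      Real.exp 6 * (ρ * D) + kc * Real.exp (2 - L) * (200 * L ^ 2 * D) := by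
    refine le_trans ?_ (add_le_add (mul_le_mul_of_nonneg_left h1 (by positivity))
      (mul_le_mul_of_nonneg_left h2 (by positivity)))
    rw [sum_filter, mul_sum, mul_sum, ← sum_add_distrib]
    refine sum_le_sum fun U _ => ?_
    have h0 := df_nonneg (ℓ := ℓ) (h := h) (β := β) s s' U
    unfold fac
    by_cases hU : stein U ≤ ℓ
    · rw [if_pos hU]
      refine le_add_of_le_of_nonneg (le_of_eq ?_) (by positivity)
      by_cases hD : Dfc g ℓ U
      · rw [if_pos hD, if_pos ⟨hU, hD⟩, mul_assoc]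
      · rw [if_neg hD, if_neg fun h => hD h.2, zero_mul, mul_zero]
    · rw [if_neg hU, if_neg fun h => hU h.1, mul_zero, zero_add, mul_assoc, mul_assoc,
        mul_left_comm (Real.exp _), ← Real.exp_add, mul_comm (Real.exp _)]
      refine mul_le_mul_of_nonneg_left (mul_le_mul_of_nonneg_left (Real.exp_le_exp.2 ?_) h0) hc
      have h4 : (1 : ℝ) ≤ (stein U : ℝ) / ℓ := by
        rw [le_div_iff₀ hl, one_mul]; exact_mod_cast (not_le.1 hU).le
      rw [mul_div_assoc, mul_div_assoc]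
      nlinarith
  have h4 : ∑ U ∈ near (2 * (L * ℓ)) z, g.bf ℓ h s U * Real.exp (2 * (stein U : ℝ) / ℓ) ≤
      200 * L ^ 2 * b := by
    refine le_trans (sum_le_sum fun U _ => mul_le_mul_of_nonneg_left (Real.exp_le_exp.2 ?_)
      (bf_nonneg s U)) (H.sum_up (bf_nonneg s) hb z)
    gcongr
    linarith
  have h5 : ∑ U ∈ near (2 * (L * ℓ)) z, g.pn ℓ (h / 2) β U (NL g (covP (Dm g.A) ℓ (L * ℓ)) s s' U) *
      Real.exp (2 * (stein U : ℝ) / ℓ) ≤ 200 * ν := by
    have h6 := sum_near H.a'.l (by omega : L * ℓ ≤ 2 * (L * ℓ)) (fun U => pn_nonneg _ _) hν z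
    have h7 : (L : ℝ) ≠ 0 := by linarith
    refine le_trans (le_of_eq (sum_congr rfl fun U _ => ?_)) (h6.trans (le_of_eq ?_))
    · congr 2
      push_cast
      field_simp
    · push_cast
      field_simp
      ring
  simp only [add_mul (g.bf ℓ h s _), sum_add_distrib]
  have h8 := mul_le_mul_of_nonneg_left (add_le_add h4 h5)
    (by positivity : 0 ≤ 6 * Real.exp 6 * (kc + 3 * ke))
  linarith

set_option maxHeartbeats 600000 in
/-- The weighted steps contract when the boundary is good. -/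
theorem stepLS : StepLS := by
  classical
  obtain ⟨L₁, hP⟩ := cl_P
  obtain ⟨Ch, hCh, hH⟩ := hyp_domW
  obtain ⟨Cd, hCd, hd⟩ := df_srcSt
  have he6 : 1 ≤ Real.exp 6 := Real.one_le_exp (by norm_num)
  set e₀ := 1 / (640000 * Real.exp 6 * Ch) with he₀
  have he0 : 0 < e₀ := by positivity
  have he1 : 640000 * Real.exp 6 * Ch * e₀ = 1 := by rw [he₀]; field_simp
  have he4 := mul_pos (by linarith : 0 < Ch) he0
  have he2 : 576 * Ch * e₀ ≤ 1 := by nlinarith
  have he3 : e₀ ≤ 1 := by nlinarith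
  refine ⟨e₀ ^ 2, by positivity, ?_⟩
  obtain ⟨L₂, hL₂⟩ := eventually_atTop.1 (ev_exp (800 * (4 * Ch)))
  refine ⟨max (max L₁ L₂) 60, fun L hL => ?_⟩
  obtain ⟨Cc, hCc, hP⟩ := hP L (le_of_max_le_left (le_of_max_le_left hL))
  have hE1 := hL₂ L (le_of_max_le_right (le_of_max_le_left hL))
  have hL60 : 60 ≤ L := le_of_max_le_right hL
  have hL60' : (60 : ℝ) ≤ L := by exact_mod_cast hL60
  set A := 1200 * Real.exp 6 * (4 * Ch * L + 3 * (20 * Ch ^ 2)) with hA
  set B := 2 + 2 * (Cd * Real.exp L) with hB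
  have hA0 : 0 ≤ A := by positivity
  have hB0 : 1 ≤ B := by have : 0 ≤ Cd * Real.exp L := by positivity
                         linarith
  have h1 : 0 ≤ A * Cc * B := by positivity
  have h2 : 0 ≤ A * L ^ 2 := by positivity
  have h3 : Cc ≤ Cc * B := le_mul_of_one_le_right (by linarith) hB0
  refine ⟨A * Cc * B + A * L ^ 2 + Cc * B + 1, by linarith,
    fun g hA' hon j hj hM hSW c ω ω' hc hcL hBd h h' δ hh hhh hh2 hδ hCδ s hs hz D E b
      hD0 hE hb aD aE ab z => ?_⟩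
  have hl := FM.eight_le_sc (L := L) (by omega) j
  generalize sc L j = ℓ at *
  have hE3 : 576 * Ch * c ^ 2 ≤ L := by
    have b1 : 576 * Ch * e₀ * e₀ ≤ 1 := mul_le_one₀ he2 he0.le he3
    have b2 := mul_le_mul_of_nonneg_left hcL (by linarith : 0 ≤ 576 * Ch)
    have b3 := mul_le_mul_of_nonneg_right b1 (by linarith : (0 : ℝ) ≤ L)
    linarith
  have hE4 : c * √((L : ℝ)⁻¹) ≤ e₀ := by
    refine (sq_le_sq₀ (by positivity) he0.le).1 ?_
    rw [mul_pow, Real.sq_sqrt (by positivity), ← div_eq_mul_inv, div_le_iff₀ (by linarith)]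
    exact hcL
  have hh0 : 0 < h := by nlinarith
  have hl0 : (0 : ℝ) < ℓ := by positivity
  have a : Ad g ℓ h (δ * ℓ / h ^ 2) := ⟨hA', by omega, hh0, by positivity⟩
  have h60 : 60 * ℓ ≤ L * ℓ := Nat.mul_le_mul_right ℓ hL60
  have hE0 := G.anch_nonneg (df_nonneg _ _) aE
  have hb0 := G.anch_nonneg (bf_nonneg s) ab
  have ae := hd L g hA' ℓ hl (by omega) (sepW_mono hSW (by omega)) h δ hh0 hδ _ (wf_srcSt s.z).1 s.z 0
    2 0 zero_le_two (fun k => by rw [Pi.zero_apply, sub_zero]; exact hz k) (fun z => by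
      simp only [Geo.df, sub_self, dp_zero, a.zero, add_zero, zero_mul, sum_const_zero, le_refl])
  rw [zero_add] at ae
  have hε : E + b + Cd * Real.exp L * δ * 2 ≤ B * δ := by rw [hB]; linarith
  obtain ⟨hE', hP⟩ := hP g ℓ h _ a hl hh
  have h5 := mul_le_mul_of_nonneg_left hε (by linarith : 0 ≤ Cc)
  have h6 := mul_le_mul_of_nonneg_left hε (by positivity : 0 ≤ A * Cc)
  have h7 := mul_nonneg h1 hδ.le
  have h8 := mul_nonneg h2 hδ.le
  have h10 := mul_nonneg (by linarith : 0 ≤ Cc * B) hδ.le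
  obtain ⟨-, c2, -⟩ := hP s _ hs (wf_srcSt s.z).1 (wf_srcSt s.z).2 E b _ (by linarith) aE ab ae
  have H := hH g L ℓ j h h' δ c hA' hon hj hl hM hSW hBd.sch hc hL60 hE3 hh0 hhh hh2 hδ s hs hE'
  have hω := hBd.one z
  have hDω : 0 ≤ D * ω' z := by positivity
  refine (H.coreU z (sum_ksU hA' hl (by omega) hM (sepW_mono hSW (by omega)) hBd
    (by linarith) (by nlinarith [sq_nonneg c]) (by positivity) (df_nonneg _ _) aD hD0 z)
    ((loc_sum (by omega) (df_nonneg _ _) aD hD0 (by linarith) z (2 * L)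
      (fun x hx => hBd.mono x z (by rw [mul_assoc] at hx; omega)) _ fun U hU => by
        obtain ⟨x, hx, h⟩ := mem_near.1 hU
        exact ⟨x, hx, by rwa [mul_assoc]⟩).trans (mul_le_mul_of_nonneg_right
          (by push_cast; nlinarith) hDω)) ab c2).trans ?_
  have e2 := mul_le_mul_of_nonneg_left hE4 (by positivity : 0 ≤ Real.exp 6 * Ch)
  have e1 : Real.exp 6 * e₀ ^ 2 ≤ Real.exp 6 * Ch * e₀ := by
    rw [mul_assoc, sq]
    exact mul_le_mul_of_nonneg_left (mul_le_mul_of_nonneg_right (by linarith) he0.le) (by linarith)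
  have e3 : 4 * Real.exp 6 * (169 * (2 * Ch * c * √((L : ℝ)⁻¹)) + 10000 * e₀ ^ 2) +
      800 * (4 * Ch * L) * L ^ 2 * Real.exp (2 - L) ≤ 1 / 4 := by
    linarith
  have e4 := mul_le_mul_of_nonneg_right e3 hDω
  have e6 := mul_le_mul_of_nonneg_right h6 (add_nonneg hE0 hb0)
  have e7 : A * Cc * (B * δ) * b ≤ b := mul_le_of_le_one_left hb0 (by linarith)
  have e8 := mul_nonneg (by linarith : 0 ≤ A * Cc * B + Cc * B) hb0
  have e9 := mul_nonneg (by linarith : 0 ≤ A * L ^ 2 * δ + Cc * B * δ + δ) hE0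
  have e10 : A * (L ^ 2 * b + Cc * (E + b + Cd * Real.exp L * δ * 2) * (E + b)) ≤
      (A * Cc * B + A * L ^ 2 + Cc * B + 1) * b +
        (A * Cc * B + A * L ^ 2 + Cc * B + 1) * δ * E := by linarith
  have e11 := le_mul_of_one_le_right (le_trans (by positivity) e10) hω
  linarith

end Vale.Agent.P144Z.W.Geo.R8
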