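import Vale.Agent.P144U.Rg.Ind
import Vale.Agent.P144U.Rg.Step
import Vale.Agent.P144U.Fl.Flow

/-!
The engine for boundaries with isolated tips.
-/

namespace Vale.Agent.P144Z

open Finset Matrix

namespace RgU

open W W.FD Vale.Agent.P144Z.FM

theorem all (hI : InitU) {L : ℕ} (hL16 : 16 ≤ L) {C : ℝ} (hC : 1 ≤ C) : ∃ δ > (0 : ℝ),
    ∃ A : ℝ, 1 ≤ A ∧ ∃ σ : ℝ, 0 ≤ σ ∧ ∃ η₀ > (0 : ℝ), ∀ η, 0 < η → η ≤ η₀ → ∀ R : ℕ,
    ∃ δ₀ > (0 : ℝ), ∀ q : Par, q.R = R → Crit L q η δ₀ → ∀ (k m : ℕ) (Ω : ℝ), 1 ≤ Ω → 1 ≤ k →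
      (∀ j, k ≤ j → (48 * Ω) ^ (m + 1) * Ω * 2 ^ j ≤ 3 ^ j) → ∀ (g : Geo) (ω : ℕ → g.P → ℝ) h,
      g.Pre0 L q.R → Fintype.card g.K ≤ m → g.StepsU L k C Ω ω → Rad L h →
      (∀ u : Cor g.M, u.Ok → u.Off g.A → u.Wt σ η → W.FD.EFull g L q u h δ (A * η)) ∧
        W.FD.EFull g L par0 0 h δ 0 := by
  obtain ⟨Cb, hCb, hbf⟩ := W.Geo.ag_bfC
  have hL0 : (0 : ℝ) < L := by positivity
  have hL1 : 1 ≤ L := by omega
  obtain ⟨β₀, hβ₀, σ, hσ, hI⟩ := hI (2 * L) ((L : ℝ) ^ 2) (by positivity) (by positivity)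
  obtain ⟨Cd, hCd, hD⟩ := W.Geo.init_dfC L ((L : ℝ) ^ 2) (by positivity) (by positivity)
  obtain ⟨δ, hδ, hδ2, hδ3⟩ : ∃ δ : ℝ, 0 < δ ∧ C * δ ≤ 1 ∧
      δ * (8 : ℕ) / ((L : ℝ) ^ 2) ^ 2 ≤ β₀ := by
    refine ⟨min (1 / C) (β₀ / 8), by positivity, ?_, ?_⟩
    · rw [mul_comm, ← le_div_iff₀ (by positivity)]
      exact min_le_left _ _
    · have h1 : (1 : ℝ) ≤ ((L : ℝ) ^ 2) ^ 2 := one_le_pow₀ (one_le_pow₀ (by exact_mod_cast hL1))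
      refine (div_le_self (by positivity) h1).trans ?_
      have := min_le_right (1 / C) (β₀ / 8)
      push_cast
      linarith
  set B := Cb * Real.exp L with hB
  have hB0 : 0 ≤ B := by positivity
  set a₀ := 4 * 10001 + Cd with ha₀
  have ha0 : 0 ≤ a₀ := by positivity
  have ha1 : a₀ ≤ C * a₀ := le_mul_of_one_le_left ha0 hC
  set A := C * (3 * (C * a₀) + 12 * (C * B) + B) with hA
  have hA1 : 3 * (C * a₀) + 12 * (C * B) + B ≤ A := le_mul_of_one_le_left (by positivity) hC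
  have hCB : 0 ≤ C * B := by positivity
  have main : ∀ (q : Par) (η : ℝ), 0 ≤ η → η ≤ 1 / 20 → 2 * (A * η) ≤ δ → q.Ok → |q.x - tc| ≤ η →
      |q.Z - 1| ≤ η → ∀ (k m : ℕ) (Ω : ℝ), 1 ≤ Ω → 1 ≤ k →
      (∀ j, k ≤ j → (48 * Ω) ^ (m + 1) * Ω * 2 ^ j ≤ 3 ^ j) → ∀ R (g : Geo) (ω : ℕ → g.P → ℝ)
      (u : Cor g.M) h, g.Pre0 L R → Fintype.card g.K ≤ m → g.StepsU L k C Ω ω → Rad L h → u.Ok →
      (NormedSpace.exp (∑ U, g.W0C q u U) =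
          g.E0 (q.x * q.Z) (NormedSpace.exp (∑ X, g.HinC q u X)) ∧
        Anch 8 (2 * L) (fun U => g.pn 8 ((L : ℝ) ^ 2) (δ * (8 : ℕ) / ((L : ℝ) ^ 2) ^ 2) U
          (g.W0C q u U - g.Wsrc q U)) (10001 * η)) →
      (∀ j ≤ g.J, Anch (sc L j) L (g.bf (sc L j) (h j) (g.flowC L q u j))
        (B * η / 2 ^ j / 2 ^ j)) → W.FD.EFull g L q u h δ (A * η) := by
    intro q η hη hη1 hηδ hq hx hZ k m Ω hΩ hk hT R g ω u h hp hm hS hr hu hi hb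
    have h0 := hD g hp.ok u hu q η hq hx hZ (δ * (8 : ℕ) / ((L : ℝ) ^ 2) ^ 2) _ (by positivity)
      hp.on (anch_tau hi.2 (fun _ => RN.pn_nonneg _) (by linarith))
    have h1 := ind hL1 hC hδ hδ2 hΩ hk hT hp.ok hu hm hS hr
      (q := q) (a₀ := a₀ * η) (a := 3 * (C * a₀) * η) (b := B * η) (by positivity)
      (le_of_eq (by ring)) (by positivity)
      (by rw [hA] at hηδ; linarith) (z0_le hη1 hx hZ)
      (by rw [hr.h0]; exact anch_le h0 (le_of_eq (by rw [ha₀]; ring))) fun j hj => hb j hj.le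
    refine ⟨h1.mono (by nlinarith) (by rw [hA]; linarith), hi.1, ?_, fun j hj => ?_⟩
    · rw [hr.h0]
      exact anch_le hi.2 (mul_le_mul_of_nonneg_right (by linarith) hη)
    · refine anch_le (hb j hj) ?_
      gcongr
      linarith
  have hA0 : 1 ≤ A := by linarith
  refine ⟨δ, hδ, A, hA0, σ, hσ, min (1 / 10001) (δ / (2 * A)), by positivity,
    fun η hη hη0 R => ?_⟩
  obtain ⟨Ci, hCi, hI1⟩ := hI R
  obtain ⟨Ci', hCi', hI0⟩ := hI 0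
  obtain ⟨hη1, hη2⟩ := le_min_iff.1 hη0
  rw [le_div_iff₀ (by positivity)] at hη2
  have e : Ci * (η / Ci) = η := by field_simp
  refine ⟨η / Ci, by positivity, fun q hR hc k m Ω hΩ hk hT g ω h hp hm hS hr =>
    ⟨fun u hu hf hs => ?_, ?_⟩⟩
  · have h2 := hI1 q hR hc.ok _ _ hc.small (by rw [e]; linarith) g hp.ok u hu hs
      hp.on (FlU.src_far hL1 hp) _ (by positivity) hδ3
    refine main q η hη.le (by linarith) (by linarith) hc.ok hc.x hc.Z k m Ω hΩ hk hT _ g ω u h hp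
      hm hS hr hu ⟨h2.1, anch_le h2.2 (by rw [e]; linarith)⟩ fun j hj => ?_
    refine anch_mono (hbf L (by omega) q η hc.ok hc.bulk g hp.ok u hu hf hp.R_le j
      ((Nat.mul_le_mul_left _ (sc_mono hL1 hj)).trans hp.M_le))
      (bf_mono (by have := eight_le_sc hL1 j; omega) (hr.pos hL1 j) (hr.hi j)
        (W.Geo.wf_flowC hp.ok hu L q j)) ?_
    rw [div_div, div_eq_mul_one_div, ← div_div]
    exact mul_le_mul_of_nonneg_left (th_pow hL16 j) (by positivity)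
  · have hc := crit_par0 L 0 0 le_rfl le_rfl
    have h2 := hI0 par0 rfl hc.ok 0 0 hc.small (by simp) g hp.ok 0 (Cor.ok_zero _)
      (Cor.wt_zero _ _ le_rfl) hp.on (FlU.src_far hL1 hp) _ (by positivity) hδ3
    have := main par0 0 le_rfl (by norm_num) (by linarith) hc.ok hc.x hc.Z k m Ω hΩ hk hT _ g ω 0
      h hp hm hS hr (Cor.ok_zero _) ⟨h2.1, anch_le h2.2 (by simp)⟩ fun j _ => by
        rw [Geo.flowC_zero]
        exact anch_le (anch_zero (bf_free (by have := eight_le_sc hL1 j; omega)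
          (hr.pos hL1 j) (W.Geo.free_flow hp.ok L j))) (by simp)
    rwa [mul_zero] at this

theorem bdU_mono {M : ℕ} [NeZero M] {A : Gauge M} {L ℓ : ℕ} {c ε ε' : ℝ} {ω ω' : Tor M → ℝ}
    (H : BdU A L ℓ c ε ω ω') (h : ε ≤ ε') : BdU A L ℓ c ε' ω ω' := by
  refine ⟨H.sch, H.one, H.mono, fun z => ?_⟩
  obtain ⟨κ, Z₁, Z₂, h1, h2, h3, h4, h5, h6⟩ := H.cov z
  exact ⟨κ, Z₁, Z₂, h1, h2, h3, h4,
    h5.trans (mul_le_mul_of_nonneg_right h (zero_le_one.trans (H.one z))), h6⟩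

theorem stepL_mono {g : Geo} {L j : ℕ} {C C' : ℝ} {ω ω' : g.P → ℝ} (H : g.StepL L j C ω ω')
    (h1 : C ≤ C') (hω : ∀ z, 1 ≤ ω' z) : g.StepL L j C' ω ω' := by
  intro h h' δ a1 a2 a3 a4 a5 s hs hz D E b b0 b1 b2 aD aE ab
  have hE := G.anch_nonneg (df_nonneg _ _) aE
  have hb := G.anch_nonneg (bf_nonneg _) ab
  exact anchW_le (H h h' δ a1 a2 a3 a4 (by nlinarith) s hs hz D E b b0 b1 b2 aD aE ab)
    (by gcongr) hω

/-- The steps for the fields of the class. -/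
theorem steps (hW : WtS) : ∃ ε₀ > (0 : ℝ), ∀ ε > (0 : ℝ), ε ≤ ε₀ → ∃ L₀ : ℕ, ∀ L ≥ L₀, ∃ C : ℝ,
    1 ≤ C ∧ ∀ N : ℕ, ∃ Ω : ℝ, 1 ≤ Ω ∧ ∀ (g : Geo) (R k : ℕ), g.Pre0 L R →
      QU L ε k N g.M g.A g.J → ∃ ω, g.StepsU L k C Ω ω := by
  obtain ⟨C₀, hC₀, ε₀, hε₀, L₀, H⟩ := W.Geo.R8.step_domW
  obtain ⟨ε₁, hε₁, L₁, H₁⟩ := W.Geo.R8.stepLS
  refine ⟨min (min ε₀ (1 / (12 * C₀))) (ε₁ / 4000), by positivity,
    fun ε hε hε' => ⟨max (max L₀ L₁) 20, fun L hL => ?_⟩⟩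
  obtain ⟨e0, e3⟩ := le_min_iff.1 hε'
  obtain ⟨e1, e2⟩ := le_min_iff.1 e0
  have hL20 : 20 ≤ L := le_of_max_le_right hL
  have hL1 : 1 ≤ L := by omega
  obtain ⟨C, hC, H⟩ := H L (le_of_max_le_left (le_of_max_le_left hL))
  obtain ⟨C₁, hC₁, H₁⟩ := H₁ L (le_of_max_le_right (le_of_max_le_left hL))
  have h0 : 0 ≤ C₀ * (L : ℝ) ^ 2 := by positivity
  refine ⟨C + C₀ * (L : ℝ) ^ 2 + C₁, by linarith, fun N => ?_⟩
  obtain ⟨Ω, hΩ, hW⟩ := hW L N hL20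
  refine ⟨Ω, hΩ, fun g R k hp ⟨Tp, hTp, ⟨c, hc, hcL, hb⟩, c', hc', hcL', hb'⟩ => ?_⟩
  obtain ⟨ω, hω, hW⟩ := hW g.M Tp
  have h1 : ∀ j < g.J, L * sc L j ≤ sc L g.J := fun j hj => by
    rw [← sc_succ]; exact sc_mono hL1 hj
  have hM := hp.M_le
  have he : ∀ j < g.J, j < k →
      g.StepD L j (C + C₀ * (L : ℝ) ^ 2 + C₁) (if j = 0 then C + C₀ * (L : ℝ) ^ 2 + C₁ else 1 / 3) := by
    intro j hj hjk
    obtain ⟨κ, σ, n₂, a3, a4, -, a5, a6⟩ := hb j hjk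
    have := h1 j hj
    refine stepD_mono (H g hp.ok.sign hp.on j (sc L j) hj (eight_le_sc hL1 j) (by omega)
      (W.Geo.R8.sepW_mono hp.sep (by omega)) c κ σ n₂ a6 hc (hcL.trans (by gcongr)) a3 a4)
      (by linarith) ?_
    have h2 := mul_le_mul_of_nonneg_left a5 (by linarith : 0 ≤ C₀)
    split_ifs at h2 ⊢
    · linarith
    · rw [le_div_iff₀ (by positivity)] at e2
      linarith
  refine ⟨ω, he, fun j hj => ?_, fun j hj hkj => ?_, hω⟩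
  · rcases Nat.lt_or_ge j k with hjk | hkj
    · exact ⟨_, he j hj hjk⟩
    · obtain ⟨κ, σ, n₂, -, -, -, -, a6⟩ := hb' j hkj hj
      have := h1 j hj
      have a7 : BdW g.A (sc L j) (L * sc L j) 8 c' (1 / 8) 0 (univ : Finset g.P).card :=
        ⟨a6.sch, fun z => ⟨∅, univ, le_rfl, by simp, by simp, fun x _ _ =>
          Or.inr (Or.inr ⟨x, mem_univ _, by rw [tdist_self]; exact Nat.zero_le _⟩)⟩⟩
      exact ⟨_, stepD_mono (H g hp.ok.sign hp.on j (sc L j) hj (eight_le_sc hL1 j) (by omega)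
        (W.Geo.R8.sepW_mono hp.sep (by omega)) c' _ _ _ a7 hc' (hcL'.trans (by gcongr))
        (by norm_num) (by norm_num)) (by linarith) le_rfl⟩
  · obtain ⟨κ, σ, n₂, a3, a4, a7, a5, a6⟩ := hb' j hkj hj
    have := h1 j hj
    have h8 := eight_le_sc hL1 j
    refine stepL_mono (H₁ g hp.ok.sign hp.on j hj (by omega)
      (W.Geo.R8.sepW_mono hp.sep (by omega)) c' _ _ hc' (hcL'.trans (by gcongr; linarith))
      (bdU_mono (hW g.A (sc L j) n₂ c' κ σ ε (by omega)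
        (fun p a p' a' h => by have := hTp p a p' a' h; omega) hcL' a3 a4 a7 a5 a6) (by linarith)))
      (by linarith) fun z => (hω _ z).1

theorem ex_k (T : ℝ) : ∃ k : ℕ, 1 ≤ k ∧ ∀ j, k ≤ j → T * 2 ^ j ≤ 3 ^ j := by
  obtain ⟨k, hk⟩ := pow_unbounded_of_one_lt T (by norm_num : (1 : ℝ) < 3 / 2)
  refine ⟨k + 1, by omega, fun j hj => ?_⟩
  rw [← le_div_iff₀ (by positivity), ← div_pow]
  exact hk.le.trans (pow_le_pow_right₀ (by norm_num) (by omega))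

end RgU

/-- The engine for boundaries with isolated tips. -/
theorem engT_of (hI : InitU) (hW : WtS) : EngT := by
  obtain ⟨ε₀, hε₀, H⟩ := RgU.steps hW
  refine ⟨ε₀, hε₀, fun ε hε hε' => ?_⟩
  obtain ⟨L₀, H⟩ := H ε hε hε'
  refine ⟨max L₀ 16, fun L hL => ?_⟩
  obtain ⟨C, hC, H⟩ := H L (le_of_max_le_left hL)
  choose Ω hΩ H using H
  choose kf hk1 hk2 using fun n N : ℕ => RgU.ex_k ((48 * Ω N) ^ (n + 1) * Ω N)
  obtain ⟨δ, hδ, A, hA, σ, hσ, η₀, hη₀, hE⟩ := RgU.all hI (le_of_max_le_right hL) hC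
  refine ⟨kf, δ, hδ, A, hA, σ, hσ, η₀, hη₀, fun η hη hη' R => ?_⟩
  obtain ⟨δ₀, hδ₀, hE⟩ := hE η hη hη' R
  refine ⟨δ₀, hδ₀, ?_⟩
  rintro q hR hc n _ ⟨N, k, hk, rfl⟩ g h hp hm hQ hr
  obtain ⟨ω, hS⟩ := H N g _ k hp hQ
  exact hE q hR hc k n (Ω N) (hΩ N) ((hk1 n N).trans hk) (fun j hj => hk2 n N j (hk.trans hj))
    g ω h hp hm hS hr

end Vale.Agent.P144Z
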