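import Vale.Agent.P144U.Rg.Sk
import Vale.Agent.P144D.I.O.Flow1

/-!
The induction over the scales with weighted late steps.
-/

namespace Vale.Agent.P144Z

open Finset Matrix

/-- The steps below `k` contract; from `k` on they contract for the weights `ω`. -/
structure Geo.StepsU (g : Geo) (L k : ℕ) (C Ω : ℝ) (ω : ℕ → g.P → ℝ) : Prop where
  e : ∀ j < g.J, j < k → g.StepD L j C (if j = 0 then C else 1 / 3)
  d : ∀ j < g.J, ∃ ρ, g.StepD L j C ρ
  l : ∀ j < g.J, k ≤ j → g.StepL L j C (ω (sc L j)) (ω (L * sc L j))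
  w : ∀ ℓ z, 1 ≤ ω ℓ z ∧ ω ℓ z ≤ Ω

namespace RgU

open W W.FD Vale.Agent.P144Z.FM

variable {g : Geo} {u : Cor g.M}

theorem df_weight (hA : IsW g.A) {ℓ m : ℕ} {H β β' : ℝ} (hℓ : 1 ≤ ℓ) (hH : 0 < H) (hβ : 0 < β)
    (h1 : β ≤ β') (hm : Fintype.card g.K ≤ m) {r r' : g.St} (hr : g.Wf r) (hr' : g.Wf r')
    (X : Finset g.P) : g.df ℓ H β' r r' X ≤ (4 * β' / β) ^ m * g.df ℓ H β r r' X := by
  classical
  have h2 : 1 ≤ 4 * β' / β := by
    rw [le_div_iff₀ hβ]
    linarith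
  have key : ∀ F ∈ g.sub X, g.pn ℓ H β' X F ≤ (4 * β' / β) ^ m * g.pn ℓ H β X F := fun F hF =>
    (W.Geo.pn_weight hA hℓ hH hβ hF h1).trans (mul_le_mul_of_nonneg_right
      (pow_le_pow_right₀ h2 ((card_le_univ _).trans hm)) (RN.pn_nonneg _))
  rw [Geo.df, Geo.df, mul_add]
  exact add_le_add (key _ (Geo.dp_mem (sub_mem (hr.Kmem X) (hr'.Kmem X)) X))
    (key _ (Geo.dp_mem (sub_mem (hr.car_mem X) (hr'.car_mem X)) X))

theorem anchW_anch {M : ℕ} [NeZero M] {ℓ : ℕ} {τ D Ω : ℝ} {f : Finset (Tor M) → ℝ}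
    {ω : Tor M → ℝ} (h : AnchW ℓ τ f ω D) (hD : 0 ≤ D) (hω : ∀ z, ω z ≤ Ω) :
    Anch ℓ τ f (D * Ω) := fun z => (h z).trans (mul_le_mul_of_nonneg_left (hω z) hD)

theorem anch_anchW {M : ℕ} [NeZero M] {ℓ : ℕ} {τ D : ℝ} {f : Finset (Tor M) → ℝ}
    {ω : Tor M → ℝ} (h : Anch ℓ τ f D) (hD : 0 ≤ D) (hω : ∀ z, 1 ≤ ω z) :
    AnchW ℓ τ f ω D := fun z => (h z).trans (le_mul_of_one_le_right hD (hω z))

theorem anchW_le {M : ℕ} [NeZero M] {ℓ : ℕ} {τ D D' : ℝ} {f : Finset (Tor M) → ℝ}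
    {ω : Tor M → ℝ} (h : AnchW ℓ τ f ω D) (hD : D ≤ D') (hω : ∀ z, 1 ≤ ω z) :
    AnchW ℓ τ f ω D' := fun z => (h z).trans
      (mul_le_mul_of_nonneg_right hD (zero_le_one.trans (hω z)))

theorem anch_smul {M : ℕ} [NeZero M] {ℓ : ℕ} {τ ε c : ℝ} {f : Finset (Tor M) → ℝ}
    (hA : Anch ℓ τ f ε) (hc : 0 ≤ c) : Anch ℓ τ (fun X => c * f X) (c * ε) := fun z => by
  simp only [mul_assoc, ← mul_sum]
  exact mul_le_mul_of_nonneg_left (hA z) hc

/-- The sizes of the induction. -/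
noncomputable def Dj (a c : ℝ) (j : ℕ) : ℝ := (a + 12 * c) / 3 ^ j - 12 * c / 2 ^ j / 2 ^ j

theorem Dj_succ (a c : ℝ) (j : ℕ) : Dj a c (j + 1) = Dj a c j / 3 + c / 2 ^ j / 2 ^ j := by
  unfold Dj
  field_simp
  ring

theorem Dj_zero (a c : ℝ) : Dj a c 0 = a := by simp [Dj]

theorem Dj_nonneg {a c : ℝ} (ha : 0 ≤ a) (hc : 0 ≤ c) (j : ℕ) : 0 ≤ Dj a c j := by
  induction j with
  | zero => rwa [Dj_zero]
  | succ j ih => rw [Dj_succ]; positivity

theorem Dj_le {a c : ℝ} (hc : 0 ≤ c) (j : ℕ) : Dj a c j ≤ (a + 12 * c) / 3 ^ j :=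
  sub_le_self _ (by positivity)

theorem ind {L k m : ℕ} {C δ Ω : ℝ} {ω : ℕ → g.P → ℝ} (hL : 1 ≤ L) (hC : 1 ≤ C) (hδ : 0 < δ)
    (hCδ : C * δ ≤ 1) (hΩ : 1 ≤ Ω) (hk : 1 ≤ k)
    (hT : ∀ j, k ≤ j → (48 * Ω) ^ (m + 1) * Ω * 2 ^ j ≤ 3 ^ j) (hg : g.OkW) (hu : u.Ok)
    (hm : Fintype.card g.K ≤ m) (hS : g.StepsU L k C Ω ω) {h : ℕ → ℝ} (hr : Rad L h)
    {q : Par} {a₀ a b : ℝ} (ha₀ : 0 ≤ a₀) (ha : 3 * (C * a₀) ≤ a) (hb : 0 ≤ b)
    (hz : 2 * (C * (a + 12 * (C * b) + b)) ≤ δ) (hz0 : ∀ k, |g.z0 q k| ≤ 1)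
    (h0 : Anch 8 L (g.df 8 (h 0) (δ * (8 : ℕ) / h 0 ^ 2) (g.initC q u) (g.srcSt (g.z0 q))) a₀)
    (hbf : ∀ j < g.J, Anch (sc L j) L (g.bf (sc L j) (h j) (g.flowC L q u j))
      (b / 2 ^ j / 2 ^ j)) :
    EOut g L q u g.J h δ (a + 12 * (C * b)) (C * (a + 12 * (C * b) + b)) := by
  have hCb : 0 ≤ C * b := by positivity
  have ha1 : a₀ ≤ a := by nlinarith
  have ha2 : 0 ≤ a := ha₀.trans ha1
  set A := a + 12 * (C * b) with hA
  have hA0 : 0 ≤ A := by positivity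
  have hAδ : A + b ≤ δ := by nlinarith
  set δ' := δ / (12 * Ω) with hδ'
  have hδ0 : 0 < δ' := by positivity
  have hδ1 : δ' * (12 * Ω) = δ := by rw [hδ']; field_simp
  have hδ2 : δ' ≤ δ := by nlinarith
  have hD0 := Dj_nonneg ha2 hCb
  have hwf := W.Geo.wf_flowC hg hu L q
  have hl : ∀ j, 1 ≤ sc L j := fun j => by have := eight_le_sc hL j; omega
  have hbj : ∀ j : ℕ, b / 2 ^ j / 2 ^ j ≤ b / 2 ^ j := fun j => div_pow_le (by positivity) j
  have hD2 : ∀ j : ℕ, Dj a (C * b) j ≤ A / 2 ^ j := fun j => (Dj_le hCb j).trans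
    (div_le_div_of_nonneg_left hA0 (by positivity) (pow_le_pow_left₀ (by norm_num) (by norm_num) j))
  have hAj : ∀ j : ℕ, A / 2 ^ j ≤ δ := fun j => (div_pow_le hA0 j).trans (by linarith)
  have hbδ : ∀ j : ℕ, b / 2 ^ j / 2 ^ j ≤ δ := fun j =>
    (hbj j).trans ((div_pow_le hb j).trans (by linarith))
  have hp : (1 : ℝ) ≤ (48 * Ω) ^ m := one_le_pow₀ (by linarith)
  have hT1 : ∀ j, k ≤ j → (48 * Ω) ^ m * (Dj a (C * b) j * Ω) * (48 * Ω) ≤ A / 2 ^ j := by
    intro j hj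
    have h1 := mul_le_mul_of_nonneg_right (Dj_le (a := a) hCb j)
      (by positivity : 0 ≤ (48 * Ω) ^ (m + 1) * Ω)
    have h2 : A / 3 ^ j * ((48 * Ω) ^ (m + 1) * Ω) ≤ A / 2 ^ j := by
      rw [div_mul_eq_mul_div, div_le_div_iff₀ (by positivity) (by positivity), mul_assoc]
      exact mul_le_mul_of_nonneg_left (hT j hj) hA0
    refine le_trans (le_of_eq ?_) (h1.trans h2)
    ring
  have hT2 : ∀ j, k ≤ j → b / 2 ^ j / 2 ^ j ≤ δ' := by
    intro j hj
    have h1 : 1 * (48 * Ω) * 1 * 1 ≤ (48 * Ω) ^ m * (48 * Ω) * Ω * 2 ^ j :=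
      mul_le_mul (mul_le_mul (mul_le_mul_of_nonneg_right hp (by positivity)) hΩ zero_le_one
        (by positivity)) (one_le_pow₀ one_le_two) zero_le_one (by positivity)
    rw [← pow_succ] at h1
    have h2 : (3 : ℝ) ^ j ≤ 2 ^ j * 2 ^ j := by
      rw [← mul_pow]
      exact pow_le_pow_left₀ (by norm_num) (by norm_num) j
    rw [div_div, hδ', div_le_div_iff₀ (by positivity) (by positivity)]
    exact mul_le_mul (by linarith) (by linarith [hT j hj]) (by positivity) hδ.le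
  have conv : ∀ j, k ≤ j → AnchW (sc L j) L (g.df (sc L j) (h j) (δ' * sc L j / h j ^ 2)
      (g.flowC L q u j) (g.srcSt (g.flowC L q u j).z)) (ω (sc L j)) (Dj a (C * b) j) →
      Anch (sc L j) L (g.df (sc L j) (h j) (δ * sc L j / h j ^ 2)
      (g.flowC L q u j) (g.srcSt (g.flowC L q u j).z)) (A / 2 ^ j) := by
    intro j hj H
    have h1 := hr.pos hL j
    have h2 : (0 : ℝ) < sc L j := by exact_mod_cast hl j
    refine anch_mono (anch_smul (anchW_anch H (hD0 j) fun z => (hS.w _ z).2)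
      (zero_le_one.trans hp)) (fun X => ?_) (le_trans ?_ (hT1 j hj))
    · have h3 := df_weight hg.sign (hl j) h1 (beta_pos hL hδ0 h1 j)
        (β' := δ * sc L j / h j ^ 2) (by gcongr) hm (hwf j)
        (Geo.wf_srcSt (g.flowC L q u j).z).1 X
      rwa [show 4 * (δ * sc L j / h j ^ 2) / (δ' * sc L j / h j ^ 2) = 48 * Ω by
        rw [← hδ1]; field_simp; norm_num] at h3
    · have := hD0 j
      exact le_mul_of_one_le_right (by positivity) (by linarith)
  have h0' : Anch (sc L 0) L (g.df (sc L 0) (h 0) (δ * sc L 0 / h 0 ^ 2) (g.flowC L q u 0)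
      (g.srcSt (g.flowC L q u 0).z)) a₀ := by
    rw [sc_zero]
    exact h0
  have step0 : ∀ j < g.J, ∀ ρ, g.StepD L j C ρ → ∀ D, D ≤ δ → Anch (sc L j) L (g.df (sc L j) (h j)
      (δ * sc L j / h j ^ 2) (g.flowC L q u j) (g.srcSt (g.flowC L q u j).z)) D →
      (∀ k, |(g.flowC L q u j).z k| ≤ 2) → _ := fun j hj ρ H D hD hd hzz =>
    H (h j) (h (j + 1)) δ (hr.lo j) (hr.h1 j) (hr.h2 j) hδ hCδ _ (hwf j) hzz D _ hD (hbδ j) hd
      (hbf j hj)
  have hE : ∀ j : ℕ, C * (A / 2 ^ j + b / 2 ^ j / 2 ^ j) ≤ C * (A + b) / 2 ^ j := fun j => by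
    rw [mul_div_assoc, add_div A]
    exact mul_le_mul_of_nonneg_left (by linarith [hbj j]) (by linarith)
  have key : ∀ j ≤ g.J, ((j ≤ k → Anch (sc L j) L (g.df (sc L j) (h j) (δ * sc L j / h j ^ 2)
      (g.flowC L q u j) (g.srcSt (g.flowC L q u j).z)) (Dj a (C * b) j)) ∧
      (k ≤ j → AnchW (sc L j) L (g.df (sc L j) (h j) (δ' * sc L j / h j ^ 2)
      (g.flowC L q u j) (g.srcSt (g.flowC L q u j).z)) (ω (sc L j)) (Dj a (C * b) j))) ∧
      ∀ k, |(g.flowC L q u j).z k| ≤ 2 - 1 / 2 ^ j := by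
    intro j hj
    induction j with
    | zero =>
      exact ⟨⟨fun _ => anch_le h0' (by rwa [Dj_zero]), fun h => by omega⟩,
        fun k => (hz0 k).trans (by norm_num)⟩
    | succ j ih =>
      obtain ⟨⟨h1, h1'⟩, h2⟩ := ih (by omega)
      have hj' : j < g.J := by omega
      have h3 : (0 : ℝ) ≤ 1 / 2 ^ j := by positivity
      have h9 : ∀ k, |(g.flowC L q u j).z k| ≤ 2 := fun k => (h2 k).trans (by linarith)
      have hI : Anch (sc L j) L (g.df (sc L j) (h j) (δ * sc L j / h j ^ 2)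
          (g.flowC L q u j) (g.srcSt (g.flowC L q u j).z)) (A / 2 ^ j) :=
        (le_total j k).elim (fun h => anch_le (h1 h) (hD2 j)) fun h => conv j h (h1' h)
      obtain ⟨ρ, hρ⟩ := hS.d j hj'
      obtain ⟨-, -, s3, -⟩ := step0 j hj' ρ hρ _ (hAj j) hI h9
      have e1 : j + 1 ≤ k → Anch (sc L (j + 1)) L (g.df (sc L (j + 1)) (h (j + 1))
          (δ * sc L (j + 1) / h (j + 1) ^ 2) (g.flowC L q u (j + 1))
          (g.srcSt (g.flowC L q u (j + 1)).z)) (Dj a (C * b) (j + 1)) := by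
        intro hjk
        rw [Dj_succ]
        rcases Nat.eq_zero_or_pos j with rfl | hj0
        · have s4 := (step0 0 hj' _ (hS.e 0 hj' hjk) _ (by linarith) h0' h9).2.1
          rw [← flowC_succ, ← sc_succ] at s4
          refine anch_le s4 ?_
          simp only [if_true, pow_zero, div_one, Dj_zero]
          linarith
        · have s2 := (step0 j hj' _ (hS.e j hj' hjk) _ ((hD2 j).trans (hAj j)) (h1 (by omega))
            h9).2.1
          rw [← flowC_succ, ← sc_succ, if_neg hj0.ne'] at s2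
          refine anch_le s2 (le_of_eq ?_)
          ring
      refine ⟨⟨e1, fun hkj => ?_⟩, fun k => ?_⟩
      · rcases Nat.lt_or_ge j k with hjk | hjk
        · refine anch_anchW (anch_le (anch_mono (e1 hjk) (fun X => ?_) le_rfl) le_rfl) (hD0 _)
            fun z => (hS.w _ z).1
          have := hr.pos hL (j + 1)
          exact IO.df_mono (hl _) this (beta_pos hL hδ0 this _) (by gcongr) (hwf _)
            (Geo.wf_srcSt _).1 X
        · have h5 := hT1 j hjk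
          have h6 := hD0 j
          have h7 : 0 ≤ Dj a (C * b) j * Ω := by positivity
          have h8 : Dj a (C * b) j * Ω * (48 * Ω) ≤ δ := by
            refine le_trans ?_ (h5.trans (hAj j))
            rw [mul_assoc ((48 * Ω) ^ m)]
            exact le_mul_of_one_le_left (by positivity) hp
          have h10 : Dj a (C * b) j * Ω ≤ δ' := by
            rw [hδ', le_div_iff₀ (by positivity)]
            nlinarith
          have s2 := hS.l j hj' hjk (h j) (h (j + 1)) δ' (hr.lo j) (hr.h1 j) (hr.h2 j) hδ0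
            (by nlinarith) _ (hwf j) h9 _ _ _ h6 h10 (hT2 j hjk) (h1' hjk)
            (anchW_anch (h1' hjk) h6 fun z => (hS.w _ z).2) (hbf j hj')
          rw [← flowC_succ, ← sc_succ] at s2
          refine anchW_le s2 ?_ fun z => (hS.w _ z).1
          rw [Dj_succ]
          have h11 : C * δ' * (Dj a (C * b) j * Ω) = C * δ * Dj a (C * b) j / 12 := by
            rw [← hδ1]; ring
          have h12 := mul_le_mul_of_nonneg_right hCδ h6
          have h13 : C * (b / 2 ^ j / 2 ^ j) = C * b / 2 ^ j / 2 ^ j := by ring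
          linarith
      · have h4 := (s3 k).trans (hE j)
        rw [← flowC_succ] at h4
        have h5 : C * (A + b) / 2 ^ j ≤ δ * (1 / 2 ^ (j + 1)) := by
          rw [pow_succ, div_le_iff₀ (by positivity)]
          field_simp
          linarith
        have h6 := le_of_mul_le_mul_left (h4.trans h5) hδ
        have h7 : (1 : ℝ) / 2 ^ j = 2 * (1 / 2 ^ (j + 1)) := by rw [pow_succ]; field_simp
        have h8 := abs_add_le ((g.flowC L q u (j + 1)).z k - (g.flowC L q u j).z k)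
          ((g.flowC L q u j).z k)
        rw [sub_add_cancel] at h8
        linarith [h2 k]
  have hI : ∀ j ≤ g.J, Anch (sc L j) L (g.df (sc L j) (h j) (δ * sc L j / h j ^ 2)
      (g.flowC L q u j) (g.srcSt (g.flowC L q u j).z)) (A / 2 ^ j) := fun j hj =>
    (le_total j k).elim (fun h => anch_le ((key j hj).1.1 h) (hD2 j))
      fun h => conv j h ((key j hj).1.2 h)
  have step' := fun j (hj : j < g.J) => step0 j hj _ (hS.d j hj).choose_spec _ (hAj j)
    (hI j hj.le) fun k => ((key j hj.le).2 k).trans (sub_le_self _ (by positivity))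
  refine ⟨hI, fun j hj => ?_, fun j hj k => ?_, fun j hj => ?_⟩
  · rw [sc_succ]; exact (step' j hj).1
  · rw [flowC_succ]; exact ((step' j hj).2.2.1 k).trans (hE j)
  · rw [sc_succ]; exact anch_le (step' j hj).2.2.2 (hE j)

end RgU

end Vale.Agent.P144Z
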