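import Vale.Agent.P144U.Rg.Sk
import Vale.Agent.P144E.Rg.Ks

/-!
# Weighted steps: the sum of the contraction factors of the small sets
-/

namespace Vale.Agent.P144Z.W.Geo.R8

open Finset Matrix Vale.Agent.P144Z.Geo Vale.Agent.P144Z.R8 Filter Topology

section

variable {M : ℕ} [NeZero M] {ℓ : ℕ} {τ D t : ℝ} {f : Finset (Tor M) → ℝ} {ω : Tor M → ℝ}

/-- The sets that meet a square on which the weight is at most `t`. -/
theorem loc_sum (hl : 1 ≤ ℓ) (hf : ∀ X, 0 ≤ f X) (hD : AnchW ℓ τ f ω D) (hD0 : 0 ≤ D) (ht0 : 0 ≤ t)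
    (y : Tor M) (p : ℕ) (ht : ∀ x, tdist x y ≤ p * ℓ → ω x ≤ t) (S : Finset (Finset (Tor M)))
    (hS : ∀ U ∈ S, ∃ x ∈ U, tdist x y ≤ p * ℓ) :
    ∑ U ∈ S, f U * Real.exp (τ * (stein U : ℝ) / ℓ) ≤ (2 * p + 1) ^ 2 * (D * t) := by
  classical
  obtain ⟨W, hW, hW1, hW2⟩ := cover_ball y (p * ℓ) hl
  have hl0 : (0 : ℝ) < ℓ := by exact_mod_cast hl
  have h0 := fun X => mul_nonneg (hf X) (Real.exp_pos (τ * (stein X : ℝ) / ℓ)).le
  have h1 : ∑ U ∈ S, f U * Real.exp (τ * (stein U : ℝ) / ℓ) ≤ ∑ z ∈ W, ∑ X ∈ S,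
      if ∃ x ∈ X, tdist x z ≤ ℓ then f X * Real.exp (τ * (stein X : ℝ) / ℓ) else 0 := by
    rw [sum_comm]
    refine sum_le_sum fun X hX => ?_
    obtain ⟨x, hx, hxy⟩ := hS X hX
    obtain ⟨w, hw, hd⟩ := hW2 x hxy
    refine le_trans (le_of_eq ?_) (single_le_sum (fun z _ => ?_) hw)
    · rw [if_pos ⟨x, hx, hd⟩]
    · split_ifs
      exacts [h0 X, le_rfl]
  refine h1.trans ((sum_le_card_nsmul _ _ (D * t) fun w hw => le_trans ?_
    ((hD w).trans (mul_le_mul_of_nonneg_left (ht w (hW1 w hw)) hD0))).trans ?_)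
  · rw [← sum_filter]
    exact sum_le_sum_of_subset_of_nonneg (filter_subset_filter _ (subset_univ S)) fun X _ _ => h0 X
  rw [nsmul_eq_mul]
  refine mul_le_mul_of_nonneg_right (hW.trans (le_of_eq ?_)) (by positivity)
  push_cast
  field_simp

theorem loc_sum' (hl : 1 ≤ ℓ) (hτ : 0 ≤ τ) (hf : ∀ X, 0 ≤ f X) (hD : AnchW ℓ τ f ω D)
    (hD0 : 0 ≤ D) (h0 : 0 ≤ t) (y : Tor M) (p : ℕ) (S : Finset (Finset (Tor M)))
    (ht : S.Nonempty → ∀ x, tdist x y ≤ p * ℓ → ω x ≤ t)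
    (hS : ∀ U ∈ S, ∃ x ∈ U, tdist x y ≤ p * ℓ) : ∑ U ∈ S, f U ≤ (2 * p + 1) ^ 2 * (D * t) := by
  rcases S.eq_empty_or_nonempty with rfl | h
  · rw [sum_empty]
    positivity
  exact (sum_le_sum fun U _ => le_mul_of_one_le_right (hf U)
    (Real.one_le_exp (by positivity))).trans (loc_sum hl hf hD hD0 h0 y p (ht h) S hS)

end

variable {g : Geo} {L ℓ : ℕ} {c ε k₀ : ℝ} {ω ω' : g.P → ℝ}

open Classical in
theorem sum_ksU (hA : IsW g.A) (hl : 8 ≤ ℓ) (hm : 24 ≤ L) (hM : 16 * (L * ℓ) ≤ g.M)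
    (hS : g.SepW (6 * (L * ℓ))) (hB : BdU g.A L ℓ c ε ω ω') (hc : 0 < c)
    (hcL : 576 * c ^ 2 ≤ L) (hk : 0 ≤ k₀) {f : Finset g.P → ℝ}
    {D : ℝ} (hf : ∀ X, 0 ≤ f X) (hD : AnchW ℓ L f ω D) (hD0 : 0 ≤ D) (z : g.P) :
    ∑ U ∈ (near (2 * (L * ℓ)) z).filter (fun U => stein U ≤ ℓ ∧ Dfc g ℓ U),
      ksW g L ℓ k₀ U * f U ≤ (169 * k₀ + 10000 * ε) * (D * ω' z) := by
  obtain ⟨Z₀, hZ₀, a1, a2⟩ := lcov_of_sep (ℓ := ℓ) (r := 3 * (L * ℓ))
    (sepW_sep (sepW_mono hS (by omega))) z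
  obtain ⟨κ, Z₁, Z₂, hκ, hκ1, hR, hZ₂, hsum, hcov⟩ := hB.cov z
  have h8 : 24 * ℓ ≤ L * ℓ := Nat.mul_le_mul_right ℓ hm
  have hL0 : (24 : ℝ) ≤ L := by exact_mod_cast hm
  have hω := zero_le_one.trans (hB.one z)
  set S := (near (2 * (L * ℓ)) z).filter (fun U => stein U ≤ ℓ ∧ Dfc g ℓ U) with hSd
  set P₀ : g.P → Finset g.P → Prop := fun y U => ∃ x ∈ U, tdist x y ≤ 6 * ℓ
  set P₁ : g.P → Finset g.P → Prop := fun y U => ∃ x ∈ U, tdist x y ≤ 8 * ℓ
  have e2 : ∀ y ∈ Z₁, 0 ≤ 576 * (y.2.1 * y.2.2 / L) := fun y hy => by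
    have h1 := (hR y hy).1
    have h2 := h1.trans_le (hR y hy).2.1
    positivity
  have e3 : 0 ≤ 32 * κ ^ 2 := by positivity
  have e4 : 0 ≤ 576 * (c ^ 2 / L) := by positivity
  have key : ∀ U ∈ S, ksW g L ℓ k₀ U ≤ 32 * κ ^ 2 + (∑ y ∈ Z₀, if P₀ y U then k₀ else 0) +
      (∑ y ∈ Z₁, if P₁ y.1 U then 576 * (y.2.1 * y.2.2 / L) else 0) +
      ∑ y ∈ Z₂, if P₁ y.1 U then 576 * (c ^ 2 / L) else 0 := by
    intro U hU
    obtain ⟨hn, hs, hd⟩ := mem_filter.1 hU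
    obtain ⟨x', hx', hxz⟩ := mem_near.1 hn
    have m0 : ∀ y ∈ Z₀, 0 ≤ if P₀ y U then k₀ else 0 := fun y _ => by
      split_ifs
      · exact hk
      · exact le_rfl
    have n0 : ∀ y ∈ Z₁, 0 ≤ if P₁ y.1 U then 576 * (y.2.1 * y.2.2 / L) else 0 := fun y hy => by
      split_ifs
      · exact e2 y hy
      · exact le_rfl
    have o0 : ∀ y ∈ Z₂, 0 ≤ if P₁ y.1 U then 576 * (c ^ 2 / L) else 0 := fun y _ => by
      split_ifs
      · exact e4
      · exact le_rfl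
    have m1 := sum_nonneg m0
    have n1 := sum_nonneg n0
    have n2 := sum_nonneg o0
    by_cases h0 : ∃ y ∈ Z₀, P₀ y U
    · obtain ⟨y, hy, h0⟩ := h0
      have := ksW_le_self (L := L) (ℓ := ℓ) hk U
      have k3 := single_le_sum m0 hy
      rw [if_pos h0] at k3
      linarith
    have hsrc : ¬ ∃ k, (g.src k).y ∈ U := by
      rintro ⟨k, hk⟩
      have b1 := tdist_le_stein hk hx'
      have b2 := tdist_triangle (g.src k).y x' z
      obtain ⟨y, hy, hpc⟩ := a2 k (by omega)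
      exact h0 ⟨y, hy, _, hk, by omega⟩
    have h4 : ¬ ∀ x ∈ U, Flat g.A x (2 * stein U + 3 * ℓ) := fun h =>
      hd.resolve_right hsrc ⟨h, by omega⟩
    simp only [Flat, not_forall] at h4
    obtain ⟨x, hx, p, hp, hfp⟩ := h4
    have b0 : ∀ w ∈ U, tdist p w ≤ 6 * ℓ := fun w hw => by
      have b1 := tdist_le_stein hx hw
      have b2 := tdist_triangle p x w
      omega
    have hp1 : |flux g.A p| ≠ 1 := fun h => by
      have b3 := tdist_triangle p x' z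
      have b1 := b0 x' hx'
      obtain ⟨y, hy, hpc⟩ := a1 p (((abs_eq zero_le_one).1 h).resolve_left hfp) (by omega)
      have b4 := tdist_triangle x p y
      rw [tdist_comm x p] at b4
      exact h0 ⟨y, hy, x, hx, by omega⟩
    have k1 := ksW_le hsrc (adm_ksD (ℓ := ℓ) (m := 8) hA (by omega) (by omega) hcL hc le_rfl hκ hκ1
      hk U)
    rw [ksD, if_neg hsrc] at k1
    by_cases h2 : ∀ z ∈ U, RN.Shr g.A ℓ (L * ℓ) z κ
    · rw [if_pos h2] at k1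
      linarith
    rw [if_neg h2] at k1
    have h3 := h2
    push Not at h3
    obtain ⟨w, hw, hw'⟩ := h3
    have b5 := tdist_le_stein hw hx'
    have b6 := tdist_triangle w x' z
    rcases (hcov w (by omega) ⟨p, b0 w hw, hp1⟩).resolve_left hw' with ⟨y, hy, hwy⟩ | ⟨y, hy, hwy⟩
    · obtain ⟨r1, r2, r3, r4⟩ := hR y hy
      have k2 := ksW_le hsrc (adm_ksD (ℓ := ℓ) (m := 8) hA (by omega) (by omega)
        (le_trans (by have := r1.trans_le r2; gcongr) hcL) r1 r2 hκ hκ1 hk U)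
      rw [ksD, if_neg hsrc, if_neg h2, if_pos ⟨y.1, r4, fun v hv => by
        have b7 := tdist_le_stein hv hw
        have b8 := tdist_triangle v w y.1
        rw [add_mul]
        omega⟩] at k2
      have k3 := single_le_sum n0 hy
      rw [if_pos (show P₁ y.1 U from ⟨w, hw, hwy⟩)] at k3
      linarith
    · have k3 := single_le_sum o0 hy
      rw [if_pos (show P₁ y.1 U from ⟨w, hw, hwy⟩)] at k3
      rw [if_pos fun v hv => hB.sch v ⟨p, (b0 v hv).trans (by omega), hp1⟩, ← sq] at k1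
      split_ifs at k1 <;> linarith
  have loc : ∀ (y : g.P) (p : ℕ), p ≤ 8 → ∀ T ⊆ S, (∀ U ∈ T, ∃ x ∈ U, tdist x y ≤ p * ℓ) →
      ∑ U ∈ T, f U ≤ (2 * p + 1) ^ 2 * (D * ω' z) := fun y p hp T hT hT' =>
    loc_sum' (by omega) (by positivity) hf hD hD0 hω y p T (fun ⟨U, hU⟩ x hx => by
      obtain ⟨hn, hs, -⟩ := mem_filter.1 (hT hU)
      obtain ⟨x', hx', hxz⟩ := mem_near.1 hn
      obtain ⟨v, hv, hvy⟩ := hT' U hU
      have b1 := tdist_le_stein hv hx'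
      have b2 := tdist_triangle x y v
      have b3 := tdist_triangle x v x'
      have b4 := tdist_triangle x x' z
      have b5 := Nat.mul_le_mul_right ℓ hp
      rw [tdist_comm y v] at b2
      exact hB.mono x z (by omega)) hT'
  have s3 := loc_sum' (by omega) (by positivity) hf hD hD0 hω z (2 * L) S
    (fun _ x hx => hB.mono x z (by rw [mul_assoc] at hx; omega)) fun U hU => by
      obtain ⟨x, hx, h⟩ := mem_near.1 (mem_filter.1 hU).1
      exact ⟨x, hx, by rwa [mul_assoc]⟩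
  refine (sum_le_sum fun U hU => mul_le_mul_of_nonneg_right (key U hU) (hf U)).trans ?_
  have hi : ∀ (P : Finset g.P → Prop) [DecidablePred P] (a : ℝ),
      ∑ U ∈ S, (if P U then a else 0) * f U = a * ∑ U ∈ S.filter P, f U := fun P _ a => by
    rw [sum_filter P, mul_sum]
    exact sum_congr rfl fun U _ => by split_ifs <;> simp
  have hE : 0 ≤ D * ω' z := by positivity
  have t0 : ∑ U ∈ S, (∑ y ∈ Z₀, if P₀ y U then k₀ else 0) * f U ≤ 169 * k₀ * (D * ω' z) := by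
    simp only [sum_mul]
    rw [sum_comm]
    refine (sum_le_card_nsmul _ _ (169 * k₀ * (D * ω' z)) fun y _ => ?_).trans ?_
    · rw [hi (P₀ y), mul_comm 169, mul_assoc]
      refine mul_le_mul_of_nonneg_left ((loc y 6 (by omega) _ (filter_subset _ _)
        fun U hU => (mem_filter.1 hU).2).trans (le_of_eq (by norm_num))) hk
    · rw [nsmul_eq_mul]
      exact mul_le_of_le_one_left (by positivity) (by exact_mod_cast hZ₀)
  have t1 : ∑ U ∈ S, (∑ y ∈ Z₁, if P₁ y.1 U then 576 * (y.2.1 * y.2.2 / L) else 0) * f U ≤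
      576 * ((∑ y ∈ Z₁, y.2.1 * y.2.2) / L) * (289 * (D * ω' z)) := by
    simp only [sum_mul]
    rw [sum_comm, sum_div, mul_sum, sum_mul]
    refine sum_le_sum fun y hy => ?_
    rw [hi (P₁ y.1)]
    exact mul_le_mul_of_nonneg_left ((loc y.1 8 le_rfl _ (filter_subset _ _)
      fun U hU => (mem_filter.1 hU).2).trans (le_of_eq (by norm_num))) (e2 y hy)
  have n3 : ∀ y ∈ Z₂, 0 ≤ D * y.2 := fun y hy => le_trans
    (sum_nonneg fun X _ => mul_nonneg (hf X) (Real.exp_pos _).le) ((hD y.1).trans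
      (mul_le_mul_of_nonneg_left (hZ₂ y hy _ (by rw [tdist_self]; omega)) hD0))
  have t2 : ∑ U ∈ S, (∑ y ∈ Z₂, if P₁ y.1 U then 576 * (c ^ 2 / L) else 0) * f U ≤
      576 * (c ^ 2 / L) * (289 * (D * ∑ y ∈ Z₂, y.2)) := by
    simp only [sum_mul]
    rw [sum_comm, mul_sum, mul_sum, mul_sum]
    refine sum_le_sum fun y hy => ?_
    rw [hi (P₁ y.1)]
    refine mul_le_mul_of_nonneg_left ?_ e4
    have h1 := loc_sum' (ω := fun x => D * ω x) (D := 1) (t := D * y.2) (τ := L) (by omega) (by positivity)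
      hf (fun x => by rw [one_mul]; exact hD x) zero_le_one (n3 y hy) y.1 8 (S.filter (P₁ y.1))
      (fun _ x hx => mul_le_mul_of_nonneg_left (hZ₂ y hy x (by omega)) hD0)
      fun U hU => (mem_filter.1 hU).2
    exact h1.trans (le_of_eq (by norm_num))
  simp only [add_mul, sum_add_distrib]
  rw [← mul_sum]
  have t3 := mul_le_mul_of_nonneg_left s3 e3
  have u3 : (2 * ((2 * L : ℕ) : ℝ) + 1) ^ 2 ≤ 25 * L ^ 2 := by push_cast; nlinarith
  have v3 := mul_le_mul_of_nonneg_right u3 (by positivity : 0 ≤ 32 * κ ^ 2 * (D * ω' z))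
  have w1 : 0 ≤ (∑ y ∈ Z₁, y.2.1 * y.2.2) / L * (D * ω' z) := by
    have := sum_nonneg fun y (hy : y ∈ Z₁) => mul_nonneg ((hR y hy).1.le.trans (hR y hy).2.1)
      (hR y hy).1.le
    positivity
  have w2 : 0 ≤ c ^ 2 / L * (D * ∑ y ∈ Z₂, y.2) := by
    rw [mul_sum]
    exact mul_nonneg (by positivity) (sum_nonneg n3)
  have w3 : 0 ≤ (L : ℝ) ^ 2 * κ ^ 2 * (D * ω' z) := by positivity
  have e := mul_le_mul_of_nonneg_left hsum hD0
  have e' : D * (((L : ℝ) ^ 2 * κ ^ 2 + 81 * (∑ y ∈ Z₁, y.2.1 * y.2.2) / L) * ω' z +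
      81 * c ^ 2 / L * ∑ y ∈ Z₂, y.2) = (L : ℝ) ^ 2 * κ ^ 2 * (D * ω' z) +
      81 * ((∑ y ∈ Z₁, y.2.1 * y.2.2) / L * (D * ω' z)) +
      81 * (c ^ 2 / L * (D * ∑ y ∈ Z₂, y.2)) := by ring
  rw [e'] at e
  linarith

end Vale.Agent.P144Z.W.Geo.R8
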