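import Vale.Agent.P144U.Rg.Defs

/-!
Boundaries with isolated tips: the blocks of the flow.
-/

namespace Vale.Agent.P144Z

open Finset Matrix

/-! ### From the engine to the main estimates -/

/-- The initial step with a weighted correction. -/
def InitU : Prop :=
  ∀ τ h : ℝ, 0 ≤ τ → 0 < h → ∃ β₀ > (0 : ℝ), ∃ σ : ℝ, 0 ≤ σ ∧ ∀ R : ℕ, ∃ C : ℝ, 1 ≤ C ∧ ∀ q : Par,
    q.R = R → q.Ok → ∀ δ γ, q.Small δ → C * δ + 10000 * γ ≤ 1 → ∀ g : Geo, g.OkW →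
    ∀ c : Cor g.M, c.Ok → c.Wt σ γ → (∀ k, (g.src k).on = true) →
    (∀ k k', k ≠ k' → 8 < tdist (g.src k).y (g.src k').y) → ∀ β, 0 < β → β ≤ β₀ →
      NormedSpace.exp (∑ U, g.W0C q c U) =
        g.E0 (q.x * q.Z) (NormedSpace.exp (∑ X, g.HinC q c X)) ∧
      Anch 8 τ (fun U => g.pn 8 h β U (g.W0C q c U - g.Wsrc q U)) (C * δ + 10000 * γ)

/-- The bounds on the flow. -/
def FlowQ (Q : Cls) (q : Par) (L m : ℕ) (σ γ Z a : ℝ) : Prop :=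
  ∀ (Λ : ℕ) (h : ℝ), 0 < h → ∃ w > 0, ∃ b > 0, ∃ J₀ : ℕ, ∀ g : Geo, J₀ ≤ g.J → g.Pre0 L q.R →
    Fintype.card g.K ≤ m → Q g.M g.A g.J → g.M ≤ Λ * sc L g.J → ∀ u : Cor g.M, u.Ok →
    u.Off g.A → u.Wt σ γ → g.FlowD L q u Z w a b h

/-- The bounds on the flow with insertions. -/
def FlowQV (Q : Cls) (q : Par) (L m : ℕ) (σ γ Z a c c' η₁ : ℝ) : Prop :=
  ∀ K : ℕ, ∃ θ > (0 : ℝ), ∀ (Λ : ℕ) (h : ℝ), 0 < h → ∃ w > 0, ∃ b > 0, ∃ J₀ : ℕ, ∀ g : Geo,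
    J₀ ≤ g.J → g.Pre0 L q.R → Fintype.card g.K ≤ m → Q g.M g.A g.J → g.M ≤ Λ * sc L g.J →
    ∀ v : Cor g.M, v.Ok → v.Off g.A → v.Wt σ γ → g.FlowD L q v Z w a b h ∧
      (g.SchA L c → ∀ (k : ℕ) (s : Fin k → g.P × Fin 4) (u : Fin k → ℕ → g.P × Fin 4 → ℝ)
        (ν : Fin k → ℕ → ℝ) (o : ℝ) (O : Fin k → g.Cfg → ℝ), g.MkPre s u ν L c' η₁ →
        LocO s K O → |o| ≤ 1 → (∀ i n, |O i n - o| ≤ θ) → g.FlowV s L q v o O K u ν w b h)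

/-- The bounds on the flows for the classes of an engine. -/
def FlowSU : Prop :=
  ∃ ε₁ > (0 : ℝ), ∀ c' : ℝ, 1 ≤ c' → ∃ η₁ > (0 : ℝ), ∃ L₀ : ℕ, ∀ L ≥ L₀, ∀ G, EngU L G →
    ∃ C : ℝ, 1 ≤ C ∧ ∃ σ : ℝ, 0 ≤ σ ∧ ∃ η₀ > 0, ∀ η, 0 < η → η ≤ η₀ → ∀ R : ℕ, ∃ δ₀ > 0,
      ∀ q : Par, q.R = R → Crit L q η δ₀ → ∀ Z : ℝ, |Z * (-2 * tc)| ≤ 2 →
      (∀ j, |FM.zr L q j - Z * (-2 * tc)| ≤ 1 / 2 ^ j) → ∀ m Q, G m Q →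
        FlowQ Q q L m σ η Z (C * η) ∧ ∀ c : ℝ, 1 ≤ c → c ^ 2 ≤ ε₁ * L →
          FlowQV Q q L m σ (η / C) Z (C * η) c c' η₁

/-- From the flows to the main estimates. -/
def MainSU : Prop :=
  ∀ (L m : ℕ) (q : Par) (Z a b s σ γ : ℝ) (Q : Cls), 64 ≤ L → q.Ok → 0 ≤ a →
    (FlowQ Q q L m σ γ Z a → EnU Q q L m σ γ) ∧
    (1 / 2 ≤ Z → MN.Pl L q Z a b → MN.Sg L q Z a b s →
      (FlowQ Q q L m σ γ Z a → MainU Q q (Real.exp s) Z L m σ γ) ∧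
      ∀ c c' η₁ : ℝ, Q.Sch L c → FlowQV Q q L m σ γ Z a c c' η₁ →
        MainJU Q q (Real.exp s) Z L m c' η₁ σ γ)

/-! ### The engine -/

section

variable {M : ℕ} [NeZero M]

/-- The anchored sum at `z` is at most `D * ω z`. -/
def AnchW (ℓ : ℕ) (τ : ℝ) (f : Finset (Tor M) → ℝ) (ω : Tor M → ℝ) (D : ℝ) : Prop :=
  ∀ z : Tor M, ∑ X ∈ univ.filter (fun X : Finset (Tor M) => ∃ x ∈ X, tdist x z ≤ ℓ),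
    f X * Real.exp (τ * (stein X : ℝ) / ℓ) ≤ D * ω z

/-- The boundary is good for the weights `ω` at the scale `ℓ` and `ω'` at the scale `L ℓ`. -/
structure BdU (A : Gauge M) (L ℓ : ℕ) (c ε : ℝ) (ω ω' : Tor M → ℝ) : Prop where
  sch : ∀ z, (∃ f, tdist f z ≤ L * ℓ ∧ |flux A f| ≠ 1) →
    RN.Shr A ℓ (L * ℓ) z (c * √((ℓ : ℝ) / (L * ℓ : ℕ)))
  one : ∀ z, 1 ≤ ω' z
  mono : ∀ x z, tdist x z ≤ 4 * (L * ℓ) → ω x ≤ ω' z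
  cov : ∀ z, ∃ (κ : ℝ) (Z₁ : Finset (Tor M × ℝ × ℝ)) (Z₂ : Finset (Tor M × ℝ)), 0 < κ ∧
    8 * κ ≤ 1 ∧ (∀ y ∈ Z₁, 0 < y.2.2 ∧ y.2.2 ≤ y.2.1 ∧ y.2.1 ≤ c ∧
      RkA A ℓ (L * ℓ) ((8 + 3) * ℓ) y.2.1 y.2.2 y.1) ∧
    (∀ y ∈ Z₂, ∀ x, tdist x y.1 ≤ 10 * ℓ → ω x ≤ y.2) ∧
    ((L : ℝ) ^ 2 * κ ^ 2 + 81 * (∑ y ∈ Z₁, y.2.1 * y.2.2) / L) * ω' z +
      81 * c ^ 2 / L * ∑ y ∈ Z₂, y.2 ≤ ε * ω' z ∧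
    ∀ x, tdist x z ≤ 3 * (L * ℓ) → (∃ f, tdist f x ≤ 6 * ℓ ∧ |flux A f| ≠ 1) →
      RN.Shr A ℓ (L * ℓ) x κ ∨ (∃ y ∈ Z₁, tdist x y.1 ≤ 8 * ℓ) ∨ ∃ y ∈ Z₂, tdist x y.1 ≤ 8 * ℓ

end

/-- The weights of the tips. -/
def WtS : Prop :=
  ∀ L N : ℕ, 20 ≤ L → ∃ Ω : ℝ, 1 ≤ Ω ∧ ∀ (M : ℕ) [NeZero M] (Tp : Finset (Tor M)),
    ∃ ω : ℕ → Tor M → ℝ, (∀ ℓ z, 1 ≤ ω ℓ z ∧ ω ℓ z ≤ Ω) ∧ ∀ (A : Gauge M) (ℓ n₂ : ℕ)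
      (c κ s ε : ℝ), 1 ≤ ℓ → (∀ p ∈ Tp, ∀ p' ∈ Tp, p ≠ p' → 16 * (L * ℓ) < tdist p p') →
      c ^ 2 ≤ ε * L → 0 < κ → 8 * κ ≤ 1 → 0 ≤ s → bdlW L 8 c κ s n₂ ≤ ε →
      BdT A Tp (N * (L * ℓ)) ℓ (L * ℓ) 8 c κ s n₂ → BdU A L ℓ c (4000 * ε) (ω ℓ) (ω (L * ℓ))

/-- The weighted step at the scale `j`. -/
def Geo.StepL (g : Geo) (L j : ℕ) (C : ℝ) (ω ω' : g.P → ℝ) : Prop :=
  ∀ h h' δ : ℝ, (L : ℝ) ^ 2 ≤ h → h ≤ h' → h' ≤ 2 * h → 0 < δ → C * δ ≤ 1 →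
    ∀ s : g.St, g.Wf s → (∀ k, |s.z k| ≤ 2) → ∀ D E b : ℝ, 0 ≤ D → E ≤ δ → b ≤ δ →
    AnchW (sc L j) L (g.df (sc L j) h (δ * sc L j / h ^ 2) s (g.srcSt s.z)) ω D →
    Anch (sc L j) L (g.df (sc L j) h (δ * sc L j / h ^ 2) s (g.srcSt s.z)) E →
    Anch (sc L j) L (g.bf (sc L j) h s) b →
      AnchW (L * sc L j) L (g.df (L * sc L j) h' (δ * (L * sc L j : ℕ) / h' ^ 2)
        (g.step j (sc L j) (L * sc L j) 0 s)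
        (g.srcSt (g.step j (sc L j) (L * sc L j) 0 s).z)) ω' (D / 4 + C * b + C * δ * E)

/-- The weighted steps contract when the boundary is good. -/
def StepLS : Prop :=
  ∃ ε₀ > (0 : ℝ), ∃ L₀ : ℕ, ∀ L ≥ L₀, ∃ C : ℝ, 1 ≤ C ∧ ∀ g : Geo, IsW g.A →
    (∀ k, (g.src k).on = true) → ∀ j < g.J, 16 * (L * sc L j) ≤ g.M → g.SepW (8 * (L * sc L j)) →
    ∀ (c : ℝ) (ω ω' : g.P → ℝ), 1 ≤ c → c ^ 2 ≤ ε₀ * L → BdU g.A L (sc L j) c ε₀ ω ω' →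
      g.StepL L j C ω ω'

end Vale.Agent.P144Z
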